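import Vale.Agent.N235Y.Tgt

/-! P235: the constant for bounded treewidth is at most `exp (O (k ^ 8 log k))`. -/

namespace Vale.Agent.Results.P235.A0TreewidthGrowth

open Vale.Agent.P235 Vale.Agent.P235.H134

/-- (1) For every `k`, every finite connected graph `G` of treewidth at most `k` has
`c₁(G) ≤ (4 (k+1)) ^ (270 (k+1)^8)`. (2) For every `r`, every finite connected graph `G` without
the `r × r` grid as a minor has `c₁(G) ≤ 2 ^ (r ^ (181 r^5))`. -/
theorem result :
    (∀ (k : ℕ) (V : Type) [Finite V] (G : SimpleGraph V), G.Connected → TreewidthLE G k →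
      DistortionLE G ((4 * (k + 1)) ^ (270 * (k + 1) ^ 8))) ∧
    ∀ (r : ℕ) (V : Type) [Finite V] (G : SimpleGraph V), G.Connected → ¬ IsMinor (grid r) G →
      DistortionLE G (2 ^ (r ^ (181 * r ^ 5))) :=
  ⟨fun k V _ G hG hk => N235Y.tw_growth k V G hG hk,
    fun r V _ G hG hn => N235Y.grid_growth r V G hG hn⟩

end Vale.Agent.Results.P235.A0TreewidthGrowth
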